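import Vale.Agent.P263B49.Tr
import Vale.Agent.P263B15.Rows

/-! # P263B, row LOOPH -/

namespace Vale.Agent.P263B49

open Topology Metric Set Vale.Agent.P246.T Vale.Agent.P246.T.FM Vale.Agent.P263.AD.Freu
open Vale.Agent.P263B15

theorem pc_loop {Z : Type} [TopologicalSpace Z] [SimplyConnectedSpace Z] (z₀ : Z) :
    PathConnectedSpace (Lp z₀) := by
  refine ⟨⟨kL z₀⟩, fun γ γ' => ?_⟩
  let p : Path z₀ z₀ := ⟨γ.1.1, γ.1.2, γ.2⟩
  let p' : Path z₀ z₀ := ⟨γ'.1.1, γ'.1.2, γ'.2⟩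
  obtain ⟨H⟩ := SimplyConnectedSpace.paths_homotopic p p'
  let K : C(I, PP z₀) := mkP (fun q : I × I => H q) (map_continuous H) fun s => H.source s
  have hK : ∀ s, K s ∈ ev z₀ ⁻¹' {z₀} := fun s => H.target s
  refine ⟨⟨⟨fun s => ⟨K s, hK s⟩, Continuous.subtype_mk K.continuous _⟩, ?_, ?_⟩⟩
  · exact Subtype.ext (pp_ext fun t => H.apply_zero t)
  · exact Subtype.ext (pp_ext fun t => H.apply_one t)

/-- **LOOPH** -/
theorem looph : LOOPH := by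
  intro Z _ z₀ q hq hZ hR h2
  obtain ⟨q, rfl⟩ : ∃ q', q = q' + 1 := ⟨q - 1, by omega⟩
  refine ⟨pc_loop z₀, fun j hj => rz_loop z₀ hR j (by omega), fun y y' hy hy' => ?_⟩
  have hL := lftS_pt z₀ hR
  obtain ⟨z, hz, ht⟩ := exists_tr hy
  obtain ⟨z', hz', ht'⟩ := exists_tr hy'
  rcases h2 z z' hz hz' with h | h | h
  · exact Or.inl (ht.hg_left hL h)
  · exact Or.inr (Or.inl (ht'.hg_left hL h))
  · refine Or.inr (Or.inr ?_)
    obtain ⟨b, hb⟩ := h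
    obtain ⟨w, hw⟩ := (ht.sub ht').hg_left hL ⟨b, by rw [hb, sub_zero]⟩
    exact ⟨w, by rw [hw, sub_zero]⟩

end Vale.Agent.P263B49
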