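import Vale.Agent.P246.T.LL
import Vale.Agent.P246.T.HC

/-! # P263B, row LOOPH: the path fibration is an isomorphism in the lowest degree -/

namespace Vale.Agent.P263B49

open Topology Metric Set Vale.Agent.P246.T Vale.Agent.P246.T.PR Vale.Agent.P246.T.LL

section Gen

variable {M : Type} [TopologicalSpace M]

theorem rcyc_of_Sk {A : Set M} {n : ℕ} {y : Ch n M} (hy : y ∈ Sk A n n) : RCyc A n y := by
  cases n with
  | zero => trivial
  | succ n =>
    change bd n y ∈ Con A n
    refine Sk_ind (P := fun c => bd n c ∈ Con A n) ?_ ?_ ?_ hy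
    · rw [map_zero]; exact Submodule.zero_mem _
    · intro a b ha hb; rw [map_add]; exact Submodule.add_mem _ ha hb
    · intro m σ h
      rw [bd_single]
      refine Submodule.sum_mem _ fun i _ => single_mem (fun x => ?_) _
      refine h _ ?_
      rw [card_face]
      exact (Finset.card_le_univ _).trans (by simp)

/-- every relative cycle is homologous to a chain of the Eilenberg subcomplex -/
theorem exists_Sk {A : Set M} {n : ℕ} (hL : ∀ k < n, LftS A k) {c : Ch n M} (hc : RCyc A n c) :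
    ∃ y ∈ Sk A n n, Null univ A n (y - c) := by
  obtain ⟨ρ, D, -, h2, h3, -, h5, h6, -⟩ := HC.main M A n hL
  refine ⟨ρ n c, h6 n c, D n c, Con_univ _, ?_⟩
  cases n with
  | zero => rw [h2, sub_self]; exact Submodule.zero_mem _
  | succ n => rw [h3, sub_sub_cancel]; exact h5 n _ hc

end Gen

variable {B : Type} [TopologicalSpace B] [SimplyConnectedSpace B] (b : B)

theorem key (A : Set B) (n : ℕ) : ∀ w ∈ Sk (ev b ⁻¹' A) n n,
    Null univ (ev b ⁻¹' A) n (w - lam b n (push (ev b) n w)) := by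
  intro w hw
  refine Sk_ind (P := fun w => Null univ (ev b ⁻¹' A) n (w - lam b n (push (ev b) n w)))
    ?_ ?_ ?_ hw
  · rw [map_zero, map_zero, sub_zero]; exact null_zero
  · intro a b ha hb
    rw [map_add, map_add, add_sub_add_comm]
    exact null_add ha hb
  · intro m σ h
    rw [push_single, lam_single]
    have := null_smul m (diff b A n (lft b ((ev b).comp σ)) σ (ev_lft b _) (fun x hx => by
      show ((ev b).comp (lft b ((ev b).comp σ))) x ∈ A
      rw [ev_lft]
      exact h x hx))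
    rw [smul_sub, Finsupp.smul_single, Finsupp.smul_single, smul_eq_mul, mul_one] at this
    exact this

/-- `H_n(P, ev⁻¹ A) → H_n(B, A)` is injective if the pair `(B, A)` is `(n - 1)`-connected -/
theorem ev_inj (A : Set B) (n : ℕ) (hL : ∀ k < n, LftS A k) (c : Ch n (PP b))
    (hc : RCyc (ev b ⁻¹' A) n c) (hz : Null univ A n (push (ev b) n c)) :
    Null univ (ev b ⁻¹' A) n c := by
  obtain ⟨y, hs, e1⟩ := exists_Sk (A := ev b ⁻¹' A) (fun k hk =>
    (PS.main B b).2.2.2.1 A k (hL k hk)) hc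
  rw [← null_iff e1]
  have e2 : Null univ A n (push (ev b) n y - push (ev b) n c) := by
    rw [← map_sub]
    exact null_push (fun _ _ => mem_univ _) (fun x hx => hx) e1
  obtain ⟨z, -, hz⟩ := (null_iff e2).2 hz
  obtain ⟨ρ', D', g1, -, -, g4, -, g6, g7⟩ := HC.main B A n hL
  have hs' : push (ev b) n y ∈ Sk A n n := push_mem_Sk (fun x hx => hx) hs
  have ha := g4 n _ hz
  rw [map_sub, g7 n _ hs', ← g1] at ha
  have hy : y = bd n (lam b (n + 1) (ρ' (n + 1) z)) +
      lam b n (push (ev b) n y - bd n (ρ' (n + 1) z)) +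
      (y - bd n (lam b (n + 1) (ρ' (n + 1) z)) -
        lam b n (push (ev b) n y - bd n (ρ' (n + 1) z))) := by abel
  rw [hy]
  refine null_add (null_add (null_bd (Con_univ _)) (null_of_con (lam_mem_Con b ha))) ?_
  have hw1 : (y - bd n (lam b (n + 1) (ρ' (n + 1) z)) -
        lam b n (push (ev b) n y - bd n (ρ' (n + 1) z))) ∈ Sk (ev b ⁻¹' A) n n :=
    Submodule.sub_mem _ (Submodule.sub_mem _ hs (bd_mem_Sk (lam_mem_Sk b (g6 _ _))))
      (Con_le_Sk (lam_mem_Con b ha))
  have hw2 : push (ev b) n (y - bd n (lam b (n + 1) (ρ' (n + 1) z)) -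
        lam b n (push (ev b) n y - bd n (ρ' (n + 1) z))) = 0 := by
    rw [map_sub, map_sub, ← push_bd, push_lam, push_lam, sub_self]
  have := key b A n _ hw1
  rwa [hw2, map_zero, sub_zero] at this

/-- `H_n(P, ev⁻¹ A) → H_n(B, A)` is onto if the pair `(B, A)` is `(n - 1)`-connected -/
theorem ev_onto (A : Set B) (n : ℕ) (hL : ∀ k < n, LftS A k) (z : Ch n B) (hz : RCyc A n z) :
    ∃ c : Ch n (PP b), RCyc (ev b ⁻¹' A) n c ∧ Null univ A n (push (ev b) n c - z) := by
  obtain ⟨y, hs, e1⟩ := exists_Sk hL hz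
  exact ⟨lam b n y, rcyc_of_Sk (lam_mem_Sk b hs), by rwa [push_lam]⟩

end Vale.Agent.P263B49
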