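import Vale.Agent.P263B49.Inj
import Vale.Agent.P263.AD.FreuRH

/-! # P263B, row LOOPH: the homology of the loop space in the lowest degree -/

namespace Vale.Agent.P263B49

open Topology Metric Set Vale.Agent.P246.T Vale.Agent.P246.T.FM Vale.Agent.P263.AD.Freu

section Pt

variable {M : Type} [TopologicalSpace M] {n : ℕ}

theorem range_pt (x : M) : range (ContinuousMap.const Unit x) = {x} := by
  ext y
  constructor
  · rintro ⟨_, rfl⟩
    rfl
  · rintro rfl
    exact ⟨(), rfl⟩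

theorem emb_pt (x : M) : IsEmbedding (ContinuousMap.const Unit x) :=
  IsEmbedding.of_subsingleton _

theorem hzero_pt (x : M) (h : RZ M n) : HZero univ {x} n := by
  rw [← range_pt]
  refine hzero_of_rel (emb_pt x) () ⟨fun z hz => ⟨0, ?_, ?_⟩, fun m _ y hy _ => (rz_unit m).hg hy⟩
  · simpa using (redCyc_bd n (0 : Ch (n + 1) Unit))
  · rw [map_zero]
    exact h.hg hz

/-- reduced cycles in a point bound -/
theorem hg_of_con_pt {x : M} {a : Ch n M} (ha : a ∈ Con {x} n) (hc : RedCyc n a) :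
    ∃ e ∈ Con {x} (n + 1), bd n e = a := by
  rw [← range_pt] at ha ⊢
  obtain ⟨a', rfl⟩ := exists_push_range (emb_pt x) ha
  obtain ⟨e, he⟩ := rz_unit n a' (redCyc_of_push (emb_pt x).injective hc)
  exact ⟨_, push_mem_range _ e, by rw [push_bd, he]⟩

/-- a reduced cycle which is null relative to a point bounds -/
theorem hg_of_null_pt {x : M} {z : Ch n M} (hz : RedCyc n z) (h : Null univ {x} n z) : Hg z 0 := by
  obtain ⟨b, -, hb⟩ := h
  obtain ⟨e, -, he⟩ := hg_of_con_pt hb (hz.sub (redCyc_bd n b))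
  exact ⟨e + b, by rw [map_add, he]; abel⟩

theorem null_of_hg {A : Set M} {z z' : Ch n M} (h : Hg z z') : Null univ A n (z - z') := by
  obtain ⟨b, hb⟩ := h
  rw [← hb]
  exact PR.null_bd (PR.Con_univ _)

/-- a relative cycle modulo a point is a cycle up to a chain in the point -/
theorem exists_cyc_pt {x : M} {z : Ch (n + 1) M} (hz : RCyc {x} (n + 1) z) :
    ∃ e ∈ Con {x} (n + 1), RedCyc (n + 1) (z - e) := by
  obtain ⟨e, he, h⟩ := hg_of_con_pt (x := x) (a := bd n z) hz (redCyc_bd n z)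
  refine ⟨e, he, ?_⟩
  change bd n (z - e) = 0
  rw [map_sub, h, sub_self]

theorem sc_pt (x : M) : SimplyConnectedSpace ({x} : Set M) := inferInstance

theorem lftS_pt [SimplyConnectedSpace M] (x : M) (h : ∀ i ≤ n + 1, RZ M i) :
    ∀ k ≤ n + 1, LftS ({x} : Set M) k := by
  have := sc_pt x
  exact lft_range n M {x} fun k hk => hzero_pt x (h k hk)

end Pt

variable {B : Type} [TopologicalSpace B] (b : B)

theorem rz_pp (n : ℕ) : RZ (PP b) n := by
  have : ContractibleSpace (PP b) := (PS.main B b).1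
  exact rz_of_contractible n

/-- the transgression: `y` bounds a chain `e` of paths whose end points give `z` -/
def Tr {n : ℕ} (y : Ch n ↥(ev b ⁻¹' {b})) (z : Ch (n + 1) B) : Prop :=
  ∃ e : Ch (n + 1) (PP b), bd n e = push (PR.inc (ev b ⁻¹' {b})) n y ∧
    Null univ {b} (n + 1) (push (ev b) (n + 1) e - z)

variable {b} {n : ℕ}

theorem Tr.add {y y' : Ch n ↥(ev b ⁻¹' {b})} {z z' : Ch (n + 1) B} (h : Tr b y z)
    (h' : Tr b y' z') : Tr b (y + y') (z + z') := by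
  obtain ⟨e, h1, h2⟩ := h
  obtain ⟨e', h1', h2'⟩ := h'
  refine ⟨e + e', by rw [map_add, map_add, h1, h1'], ?_⟩
  rw [map_add, add_sub_add_comm]
  exact PR.null_add h2 h2'

theorem Tr.smul {y : Ch n ↥(ev b ⁻¹' {b})} {z : Ch (n + 1) B} (h : Tr b y z) (m : ℤ) :
    Tr b (m • y) (m • z) := by
  obtain ⟨e, h1, h2⟩ := h
  refine ⟨m • e, by rw [map_smul, map_smul, h1], ?_⟩
  rw [map_smul, ← smul_sub]
  exact PR.null_smul m h2

theorem Tr.sub {y y' : Ch n ↥(ev b ⁻¹' {b})} {z z' : Ch (n + 1) B} (h : Tr b y z)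
    (h' : Tr b y' z') : Tr b (y - y') (z - z') := by
  have := h.add (h'.smul (-1))
  rwa [neg_one_smul, neg_one_smul, ← sub_eq_add_neg, ← sub_eq_add_neg] at this

theorem Tr.congr {y : Ch n ↥(ev b ⁻¹' {b})} {z z' : Ch (n + 1) B} (h : Tr b y z) (hz : Hg z z') :
    Tr b y z' := by
  obtain ⟨e, h1, h2⟩ := h
  refine ⟨e, h1, ?_⟩
  have := PR.null_add h2 (null_of_hg (A := {b}) hz)
  rwa [sub_add_sub_cancel] at this

theorem Tr.redCyc {y : Ch n ↥(ev b ⁻¹' {b})} {z : Ch (n + 1) B} (h : Tr b y z) : RedCyc n y := by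
  obtain ⟨e, h1, -⟩ := h
  refine redCyc_of_push (f := PR.inc (ev b ⁻¹' {b})) Subtype.val_injective ?_
  rw [← h1]
  exact redCyc_bd n e

theorem rcyc_ev {y : Ch n ↥(ev b ⁻¹' {b})} {e : Ch (n + 1) (PP b)}
    (h : bd n e = push (PR.inc (ev b ⁻¹' {b})) n y) : RCyc (ev b ⁻¹' {b}) (n + 1) e := by
  change bd n e ∈ _
  rw [h]
  exact PR.push_inc_mem y

/-- every reduced cycle of the loop space transgresses to a cycle -/
theorem exists_tr {y : Ch n ↥(ev b ⁻¹' {b})} (hy : RedCyc n y) :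
    ∃ z : Ch (n + 1) B, RedCyc (n + 1) z ∧ Tr b y z := by
  obtain ⟨e, he⟩ := rz_pp b n _ (redCyc_push (PR.inc (ev b ⁻¹' {b})) hy)
  obtain ⟨a, ha, h⟩ := exists_cyc_pt (x := b) (z := push (ev b) (n + 1) e)
    (PR.rcyc_push (fun x hx => hx) (rcyc_ev he))
  refine ⟨_, h, e, he, ?_⟩
  rw [sub_sub_cancel]
  exact PR.null_of_con ha

/-- boundaries transgress to boundaries -/
theorem Tr.hg_right {y : Ch n ↥(ev b ⁻¹' {b})} {z : Ch (n + 1) B} (h : Tr b y z)
    (hz : RedCyc (n + 1) z) (hy : Hg y 0) : Hg z 0 := by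
  obtain ⟨e, h1, h2⟩ := h
  obtain ⟨w, hw⟩ := hy.exists_bd
  obtain ⟨v, hv⟩ := rz_pp b (n + 1) (e - push (PR.inc (ev b ⁻¹' {b})) (n + 1) w) (by
    change bd n _ = 0
    rw [map_sub, push_bd, hw, h1, sub_self])
  refine hg_of_null_pt (x := b) hz ?_
  rw [← PR.null_iff h2]
  refine ⟨push (ev b) (n + 2) v, PR.Con_univ _, ?_⟩
  rw [push_bd, hv, map_sub, sub_sub_cancel]
  exact push_mem (fun x hx => hx) (PR.push_inc_mem w)

variable [SimplyConnectedSpace B]

/-- **injectivity** of the transgression in the lowest degree -/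
theorem Tr.hg_left (hL : ∀ k ≤ n, LftS ({b} : Set B) k) {y : Ch n ↥(ev b ⁻¹' {b})}
    {z : Ch (n + 1) B} (h : Tr b y z) (hz : Hg z 0) : Hg y 0 := by
  obtain ⟨e, h1, h2⟩ := h
  have h3 : Null univ {b} (n + 1) z := by
    have := null_of_hg (A := {b}) hz
    rwa [sub_zero] at this
  obtain ⟨v, -, hv⟩ := ev_inj b {b} (n + 1) (fun k hk => hL k (by omega)) e (rcyc_ev h1)
    ((PR.null_iff h2).2 h3)
  obtain ⟨w, hw⟩ := PR.exists_push_inc hv
  refine ⟨w, PR.push_inc_injective n ?_⟩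
  rw [sub_zero, ← push_bd, hw, map_sub, h1, PR.bd_bd, sub_zero]

/-- **surjectivity** of the transgression in the lowest degree -/
theorem exists_tr' (hL : ∀ k ≤ n, LftS ({b} : Set B) k) {z : Ch (n + 1) B}
    (hz : RedCyc (n + 1) z) : ∃ y : Ch n ↥(ev b ⁻¹' {b}), Tr b y z := by
  obtain ⟨c, hc, h⟩ := ev_onto b {b} (n + 1) (fun k hk => hL k (by omega)) z (hz.rcyc _)
  obtain ⟨y, hy⟩ := PR.exists_push_inc (show bd n c ∈ Con (ev b ⁻¹' {b}) n from hc)
  exact ⟨y, c, hy.symm, h⟩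

/-- the loop space of an `n`-connected space is `(n - 1)`-connected, in homology -/
theorem rz_loop (b : B) {N : ℕ} (h : ∀ i ≤ N + 1, RZ B i) :
    ∀ i ≤ N, RZ ↥(ev b ⁻¹' {b}) i := by
  intro i hi y hy
  obtain ⟨z, hz, ht⟩ := exists_tr hy
  exact (ht.hg_left (fun k hk => lftS_pt b h k (by omega)) ((h _ (by omega)).hg hz)).exists_bd

end Vale.Agent.P263B49
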